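import Vale.Agent.P157.Cosine
import Vale.Agent.P157.Series

/-!
Existence of the limiting pressure of the Gaussian perceptron, on the Ising cube and on the sphere,
for two classes of potentials and every pattern density.
-/

open MeasureTheory Filter Topology

namespace Vale.Agent.Results.P157.PressureLimit

/-- The limiting pressure exists on both configuration spaces. -/
def BothLimits (α : ℝ) (f : ℝ → ℝ) : Prop :=
  (∃ L : ℝ, Tendsto (fun N => Vale.Agent.P157.pressure α f N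
      (Vale.Agent.P157.isingMeasure (Fin N))) atTop (𝓝 L)) ∧
  (∃ L : ℝ, Tendsto (fun N => Vale.Agent.P157.pressure α f N
      (Vale.Agent.P157.sphereMeasure N)) atTop (𝓝 L))

theorem result :
    (∀ (α : ℝ), 0 < α → ∀ (ν : Measure ℝ) [IsFiniteMeasure ν] (a : ℝ),
      (ν Set.univ).toReal < a →
        BothLimits α fun t => Real.log (a - ∫ ξ, Real.cos (ξ * t) ∂ν)) ∧
    (∀ (ν : Measure (ℝ × ℝ)) [IsProbabilityMeasure ν],
      Integrable (fun p : ℝ × ℝ => p.1 ^ 2) ν →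
      ((∃ δ : ℝ, 0 < δ ∧ ∀ r ∈ Set.Icc (-1 : ℝ) 1, δ ≤ Vale.Agent.P157.curv ν r) ∨
        ((∀ᵐ p ∂ν, Real.sin p.2 = 0) ∧
          ∫ p, Real.cos p.2 * p.1 ^ 2 * Real.exp (-p.1 ^ 2 / 2) ∂ν ≠ 0)) →
      ∃ ε0 : ℝ, 0 < ε0 ∧ ∀ ε : ℝ, |ε| ≤ ε0 → ∀ α : ℝ, 0 < α →
        BothLimits α fun t => Real.log (1 + ε * ∫ p, Real.cos (p.1 * t + p.2) ∂ν)) := by
  refine ⟨?_, ?_⟩
  · intro α hα ν _ a ha
    exact ⟨Vale.Agent.P157.ising_limit (Φ := Vale.Agent.P157.cosPot a ν ha) hα,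
      Vale.Agent.P157.sphere_limit (Φ := Vale.Agent.P157.cosPot a ν ha) hα⟩
  · intro ν _ hν h
    obtain ⟨δ, hδ0, hδ⟩ : ∃ δ : ℝ, 0 < δ ∧
        ∀ r ∈ Set.Icc (-1 : ℝ) 1, δ ≤ Vale.Agent.P157.curv ν r := by
      rcases h with h | ⟨heven, hne⟩
      · exact h
      · exact ⟨_, lt_of_le_of_ne (sq_nonneg _) (pow_ne_zero 2 hne).symm,
          fun r hr => Vale.Agent.P157.curv_even_ge hν heven hr⟩
    refine ⟨Vale.Agent.P157.eps0 ν δ, Vale.Agent.P157.eps0_pos hδ0, fun ε hε α hα => ?_⟩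
    exact ⟨Vale.Agent.P157.ising_limit
        (Φ := Vale.Agent.P157.weakPot ν hν δ hδ0 hδ ε hε) hα,
      Vale.Agent.P157.sphere_limit
        (Φ := Vale.Agent.P157.weakPot ν hν δ hδ0 hδ ε hε) hα⟩

end Vale.Agent.Results.P157.PressureLimit
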